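import Mathlib
import Crest.Prelude.Def_TreePotentials
import Crest.Agent.Helper30.AUCBasic

/-!
# Tree-potential model spaces: evaluation API (helper60, package [B2a] of row 125)

Elements of `modelSpace m` are bounded functions on the tests of the model `m`; we provide
evaluation functionals, the "linear relation lemma", coordinate vectors and root-path vectors.
-/

set_option autoImplicit false

open Crest.AnalysisR Crest.AnalysisR.TreePotential Filter Topology

namespace Crest.Agent.Helper60

/-! ### Path potentials -/

theorem pathPotential_add (f g : List ℕ → ℝ) (s : List ℕ) :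
    pathPotential (fun u => f u + g u) s = pathPotential f s + pathPotential g s := by
  induction s with
  | nil => simp [pathPotential]
  | cons a v ih => simp only [pathPotential, ih]; ring

theorem pathPotential_smul (c : ℝ) (f : List ℕ → ℝ) (s : List ℕ) :
    pathPotential (fun u => c * f u) s = c * pathPotential f s := by
  induction s with
  | nil => simp [pathPotential]
  | cons a v ih => simp only [pathPotential, ih]; ring

theorem pathPotential_neg (f : List ℕ → ℝ) (s : List ℕ) :
    pathPotential (fun u => - f u) s = - pathPotential f s := by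
  induction s with
  | nil => simp [pathPotential]
  | cons a v ih => simp only [pathPotential, ih]; ring

theorem pathPotential_zero (s : List ℕ) : pathPotential (fun _ => (0 : ℝ)) s = 0 := by
  induction s with
  | nil => simp [pathPotential]
  | cons a v ih => simp only [pathPotential, ih]; ring

/-- The potential of the indicator of the vertex `s` is the indicator of the subtree below `s`. -/
theorem pathPotential_indicator (s u : List ℕ) :
    pathPotential (fun v => if v = s then (1 : ℝ) else 0) u = if s <:+ u then 1 else 0 := by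
  induction u with
  | nil =>
    simp only [pathPotential, List.suffix_nil]
    by_cases h : s = []
    · simp [h]
    · simp [h, Ne.symm h]
  | cons a v ih =>
    simp only [pathPotential, ih, List.suffix_cons_iff]
    by_cases h1 : s = a :: v
    · subst h1
      have : ¬ (a :: v) <:+ v := by
        intro h
        have := h.length_le
        simp at this
      simp [this]
    · by_cases h2 : s <:+ v
      · simp [h1, h2, Ne.symm h1]
      · simp [h1, h2, Ne.symm h1]

/-! ### Basic tests -/

theorem isTest_neg {m : PotentialModel} {f : List ℕ → ℝ} (hf : IsTest m f) :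
    IsTest m (fun u => - f u) := by
  refine ⟨fun s => by rw [pathPotential_neg, abs_neg]; exact hf.1 s, ?_⟩
  cases m with
  | rootlessSibling =>
    refine ⟨by simpa using hf.2.1, fun r A => ?_⟩
    simpa using hf.2.2 r A
  | rootedSibling =>
    intro r A
    simpa using hf.2 r A
  | antichain =>
    refine ⟨?_, fun A hA => ?_⟩
    · have : Function.support (fun u => - f u) = Function.support f := by
        ext u; simp
      rw [this]; exact hf.2.1
    · simpa using hf.2.2 A hA
  | global =>
    intro A
    simpa using hf.2 A

/-- The negative of a test. -/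
def negTest {m : PotentialModel} (f : PotentialTest m) : PotentialTest m :=
  ⟨fun u => - f.1 u, isTest_neg f.2⟩

theorem isTest_zero (m : PotentialModel) : IsTest m (fun _ => (0 : ℝ)) := by
  refine ⟨fun s => by rw [pathPotential_zero]; simp, ?_⟩
  cases m with
  | rootlessSibling => exact ⟨rfl, fun r A => by simp⟩
  | rootedSibling => exact fun r A => by simp
  | antichain =>
    refine ⟨?_, fun A _ => by simp⟩
    have : Function.support (fun _ : List ℕ => (0 : ℝ)) = ∅ := by ext u; simp
    rw [this]; exact Set.finite_empty
  | global => exact fun A => by simp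

theorem sum_indicator_sq_le_one {ι : Type*} [DecidableEq ι] (A : Finset ι) (g : ι → List ℕ)
    (hg : Function.Injective g) (s : List ℕ) :
    ∑ n ∈ A, (if g n = s then (1 : ℝ) else 0) ^ 2 ≤ 1 := by
  have h1 : ∀ n ∈ A, (if g n = s then (1 : ℝ) else 0) ^ 2 = if g n = s then 1 else 0 := by
    intro n _; split_ifs <;> simp
  rw [Finset.sum_congr rfl h1, ← Finset.sum_filter]
  have h2 : (A.filter (fun n => g n = s)).card ≤ 1 := by
    rw [Finset.card_le_one]
    intro a ha b hb
    simp only [Finset.mem_filter] at ha hb
    exact hg (ha.2.trans hb.2.symm)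
  simp only [Finset.sum_const, nsmul_eq_mul, mul_one]
  exact_mod_cast h2

/-- The indicator of a non-root vertex is a test in each of the four models. -/
theorem isTest_indicator (m : PotentialModel) (s : List ℕ) (hs : s ≠ []) :
    IsTest m (fun v => if v = s then (1 : ℝ) else 0) := by
  refine ⟨fun u => ?_, ?_⟩
  · rw [pathPotential_indicator]; split_ifs <;> simp
  · cases m with
    | rootlessSibling =>
      refine ⟨by simp [Ne.symm hs], fun r A => ?_⟩
      exact sum_indicator_sq_le_one A (fun n => n :: r) (fun a b h => by simpa using h) s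
    | rootedSibling =>
      intro r A
      exact sum_indicator_sq_le_one A (fun n => n :: r) (fun a b h => by simpa using h) s
    | antichain =>
      refine ⟨?_, fun A _ => ?_⟩
      · refine (Set.finite_singleton s).subset ?_
        intro u hu
        simp only [Function.mem_support, ne_eq, ite_eq_right_iff, one_ne_zero, imp_false,
          not_not] at hu
        simp [hu]
      · exact sum_indicator_sq_le_one A id Function.injective_id s
    | global =>
      intro A
      exact sum_indicator_sq_le_one A id Function.injective_id s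

/-- The indicator test of a non-root vertex. -/
noncomputable def indTest (m : PotentialModel) (s : List ℕ) (hs : s ≠ []) : PotentialTest m :=
  ⟨fun v => if v = s then (1 : ℝ) else 0, isTest_indicator m s hs⟩

/-- In each of the four models, sibling square sums of a test are at most `1`. -/
theorem sibling_sq_le {m : PotentialModel} {f : List ℕ → ℝ} (hf : IsTest m f) (r : List ℕ)
    (A : Finset ℕ) : ∑ n ∈ A, f (n :: r) ^ 2 ≤ 1 := by
  classical
  have hinj : Function.Injective (fun n : ℕ => n :: r) := fun a b h => by simpa using h
  cases m with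
  | rootlessSibling => exact hf.2.2 r A
  | rootedSibling => exact hf.2 r A
  | antichain =>
    have h := hf.2.2 (A.image (fun n => n :: r)) (by
      intro u hu v hv huv hsuf
      simp only [Finset.mem_image] at hu hv
      obtain ⟨a, _, rfl⟩ := hu
      obtain ⟨b, _, rfl⟩ := hv
      exact huv (hsuf.eq_of_length (by simp)))
    rwa [Finset.sum_image (fun a _ b _ h => hinj h)] at h
  | global =>
    have h := hf.2 (A.image (fun n => n :: r))
    rwa [Finset.sum_image (fun a _ b _ h => hinj h)] at h

/-! ### Evaluation functionals -/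

/-- Evaluation of an element of the model space at a test, as a continuous linear functional. -/
noncomputable def ev (m : PotentialModel) (f : PotentialTest m) : modelSpace m →L[ℝ] ℝ :=
  (lp.evalCLM ℝ (fun _ : PotentialTest m => ℝ) ⊤ f).comp (modelSpace m).subtypeL

theorem ev_apply (m : PotentialModel) (f : PotentialTest m) (x : modelSpace m) :
    ev m f x = (x : lp (fun _ : PotentialTest m => ℝ) ⊤) f := rfl

theorem abs_ev_le (m : PotentialModel) (f : PotentialTest m) (x : modelSpace m) :
    |ev m f x| ≤ ‖x‖ := by
  rw [ev_apply, ← Real.norm_eq_abs]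
  exact lp.norm_apply_le_norm (by simp) (x : lp (fun _ : PotentialTest m => ℝ) ⊤) f

theorem ev_le_norm (m : PotentialModel) (f : PotentialTest m) (x : modelSpace m) :
    ev m f x ≤ ‖x‖ := (le_abs_self _).trans (abs_ev_le m f x)

theorem norm_le_of_forall_abs_ev_le {m : PotentialModel} {x : modelSpace m} {C : ℝ} (hC : 0 ≤ C)
    (h : ∀ f, |ev m f x| ≤ C) : ‖x‖ ≤ C := by
  have : ‖(x : lp (fun _ : PotentialTest m => ℝ) ⊤)‖ ≤ C :=
    lp.norm_le_of_forall_le hC (fun f => by simpa [Real.norm_eq_abs, ev_apply] using h f)
  exact this

/-- The coordinate vector of the vertex `s`, as an element of the model space. -/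
noncomputable def cv (m : PotentialModel) (s : List ℕ) : modelSpace m :=
  ⟨coordVector m s, Submodule.le_topologicalClosure _ (Submodule.subset_span ⟨s, rfl⟩)⟩

@[simp] theorem ev_cv (m : PotentialModel) (f : PotentialTest m) (s : List ℕ) :
    ev m f (cv m s) = f.1 s := rfl

/-- **Linear relation lemma**: a pointwise linear relation between tests is respected by every
element of the model space. -/
theorem ev_linear_relation {m : PotentialModel} {ι : Type*} (I : Finset ι) (c : ι → ℝ)
    (f : ι → PotentialTest m) (h : ∀ u : List ℕ, ∑ i ∈ I, c i * (f i).1 u = 0)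
    (x : modelSpace m) : ∑ i ∈ I, c i * ev m (f i) x = 0 := by
  -- the functional on the ambient space
  let L : lp (fun _ : PotentialTest m => ℝ) ⊤ →L[ℝ] ℝ :=
    ∑ i ∈ I, c i • lp.evalCLM ℝ (fun _ : PotentialTest m => ℝ) ⊤ (f i)
  have hL : ∀ y : lp (fun _ : PotentialTest m => ℝ) ⊤, L y = ∑ i ∈ I, c i * y (f i) := by
    intro y
    simp only [L, FunLike.coe_sum, Finset.sum_apply, FunLike.coe_smul, Pi.smul_apply, smul_eq_mul]
    rfl
  have hker : modelSpace m ≤ LinearMap.ker (L : lp (fun _ : PotentialTest m => ℝ) ⊤ →ₗ[ℝ] ℝ) := by
    have hclosed : IsClosed ((LinearMap.ker (L : lp (fun _ : PotentialTest m => ℝ) ⊤ →ₗ[ℝ] ℝ) :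
        Submodule ℝ _) : Set (lp (fun _ : PotentialTest m => ℝ) ⊤)) :=
      L.isClosed_ker
    refine Submodule.topologicalClosure_minimal _ ?_ hclosed
    rw [Submodule.span_le]
    rintro _ ⟨s, rfl⟩
    simp only [SetLike.mem_coe, LinearMap.mem_ker, ContinuousLinearMap.coe_coe, hL]
    exact h s
  have := hker x.2
  simp only [LinearMap.mem_ker, ContinuousLinearMap.coe_coe, hL] at this
  exact this

theorem ev_negTest {m : PotentialModel} (f : PotentialTest m) (x : modelSpace m) :
    ev m (negTest f) x = - ev m f x := by
  have h := ev_linear_relation (m := m) (Finset.univ : Finset (Fin 2)) (fun _ => 1)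
    (fun i => if i = 0 then f else negTest f) (by
      intro u
      simp [Fin.sum_univ_two, negTest]) x
  simp only [Fin.sum_univ_two, one_mul] at h
  simp at h
  linarith

/-- A unit vector nearly attains its norm at a test. -/
theorem exists_ev_gt {m : PotentialModel} (x : modelSpace m) {ε : ℝ} (hε : 0 < ε) :
    ∃ f : PotentialTest m, ‖x‖ - ε < ev m f x := by
  by_contra hcon
  push Not at hcon
  have hx0 : 0 ≤ ‖x‖ := norm_nonneg x
  have h1 : ∀ f : PotentialTest m, |ev m f x| ≤ max (‖x‖ - ε) 0 := by
    intro f
    rw [abs_le]
    constructor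
    · have := hcon (negTest f)
      rw [ev_negTest] at this
      have h2 : ‖x‖ - ε ≤ max (‖x‖ - ε) 0 := le_max_left _ _
      linarith
    · exact (hcon f).trans (le_max_left _ _)
  have h2 := norm_le_of_forall_abs_ev_le (le_max_right _ _) h1
  rcases le_total (‖x‖ - ε) 0 with h3 | h3
  · rw [max_eq_right h3] at h2 h1
    have hx : ‖x‖ = 0 := le_antisymm h2 hx0
    have := hcon (⟨fun _ => 0, isTest_zero m⟩)
    have h4 := h1 ⟨fun _ => 0, isTest_zero m⟩
    rw [abs_le] at h4
    linarith [h4.1]
  · rw [max_eq_left h3] at h2
    linarith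

/-! ### Root-path vectors -/

/-- The root-path vector `z_s = Σ_{u ≼ s} e_u`. -/
noncomputable def zvec (m : PotentialModel) : List ℕ → modelSpace m
  | [] => cv m []
  | a :: v => zvec m v + cv m (a :: v)

theorem ev_zvec (m : PotentialModel) (f : PotentialTest m) (s : List ℕ) :
    ev m f (zvec m s) = pathPotential f.1 s := by
  induction s with
  | nil => simp [zvec, pathPotential]
  | cons a v ih => simp [zvec, pathPotential, ih]

theorem norm_zvec_le (m : PotentialModel) (s : List ℕ) : ‖zvec m s‖ ≤ 1 :=
  norm_le_of_forall_abs_ev_le zero_le_one (fun f => by rw [ev_zvec]; exact f.2.1 s)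

theorem zvec_cons_sub (m : PotentialModel) (k : ℕ) (s : List ℕ) :
    zvec m (k :: s) - zvec m s = cv m (k :: s) := by
  simp [zvec]

theorem one_le_norm_cv (m : PotentialModel) (s : List ℕ) (hs : s ≠ []) : 1 ≤ ‖cv m s‖ := by
  have h := abs_ev_le m (indTest m s hs) (cv m s)
  rw [ev_cv] at h
  simpa [indTest] using h

/-- Sign sums of sibling coordinate vectors have norm at most `√|A|`. -/
theorem sibling_sign_sum_sq_le (m : PotentialModel) (s : List ℕ) (A : Finset ℕ) (σ : ℕ → ℝ)
    (hσ : ∀ k, σ k = 1 ∨ σ k = -1) :
    ‖∑ k ∈ A, σ k • cv m (k :: s)‖ ^ 2 ≤ 1 * A.card := by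
  have hb : ‖∑ k ∈ A, σ k • cv m (k :: s)‖ ≤ Real.sqrt A.card := by
    refine norm_le_of_forall_abs_ev_le (Real.sqrt_nonneg _) (fun f => ?_)
    have h1 : ev m f (∑ k ∈ A, σ k • cv m (k :: s)) = ∑ k ∈ A, σ k * f.1 (k :: s) := by
      simp [map_sum]
    rw [h1]
    apply Real.abs_le_sqrt
    calc (∑ k ∈ A, σ k * f.1 (k :: s)) ^ 2
        ≤ (∑ k ∈ A, σ k ^ 2) * ∑ k ∈ A, f.1 (k :: s) ^ 2 := Finset.sum_mul_sq_le_sq_mul_sq _ _ _
      _ ≤ (A.card : ℝ) * 1 := by
          apply mul_le_mul _ (sibling_sq_le f.2 s A) (Finset.sum_nonneg fun _ _ => sq_nonneg _)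
            (Nat.cast_nonneg _)
          have : ∀ k ∈ A, σ k ^ 2 = 1 := by
            intro k _
            rcases hσ k with h | h <;> simp [h]
          rw [Finset.sum_congr rfl this]; simp
      _ = A.card := mul_one _
  calc ‖∑ k ∈ A, σ k • cv m (k :: s)‖ ^ 2 ≤ (Real.sqrt A.card) ^ 2 :=
        pow_le_pow_left₀ (norm_nonneg _) hb 2
    _ = 1 * A.card := by rw [Real.sq_sqrt (Nat.cast_nonneg _), one_mul]

theorem weaklyNull_siblings (m : PotentialModel) (s : List ℕ) :
    Crest.Agent.Helper30.WeaklyNull (fun k : ℕ => cv m (k :: s)) :=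
  Crest.Agent.Helper30.weaklyNull_of_sign_sums (C := 1)
    (fun A σ hσ => sibling_sign_sum_sq_le m s A σ hσ)

/-! ### Separability, infinite dimension, no AUC renorming -/

theorem separableSpace_modelSpace (m : PotentialModel) :
    TopologicalSpace.SeparableSpace (modelSpace m) := by
  have h1 : TopologicalSpace.IsSeparable (Set.range (coordVector m)) :=
    (Set.countable_range _).isSeparable
  have h2 : TopologicalSpace.IsSeparable
      ((modelSpace m : Submodule ℝ (lp (fun _ : PotentialTest m => ℝ) ⊤)) :
        Set (lp (fun _ : PotentialTest m => ℝ) ⊤)) := by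
    have := (h1.span (R := ℝ)).closure
    simpa [modelSpace, Submodule.topologicalClosure_coe] using this
  exact h2.separableSpace

theorem not_finiteDimensional_modelSpace (m : PotentialModel) :
    ¬ FiniteDimensional ℝ (modelSpace m) :=
  Crest.Agent.Helper30.not_finiteDimensional_of_weaklyNull (weaklyNull_siblings m [])
    zero_lt_one (fun k => one_le_norm_cv m [k] (by simp))

theorem no_auc_modelSpace (m : PotentialModel) (N : modelSpace m → ℝ)
    (hN : Crest.Agent.Helper30.IsEquivNormOn N) : ¬ Crest.Agent.Helper30.IsAUCOn N := by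
  refine Crest.Agent.Helper30.no_auc_of_bush (ι := List ℕ) (zvec m) (norm_zvec_le m)
    zero_lt_one (fun s => ⟨fun k => k :: s, ?_, fun k => ?_⟩) hN
  · simp only [zvec_cons_sub]
    exact weaklyNull_siblings m s
  · rw [zvec_cons_sub]
    exact one_le_norm_cv m (k :: s) (by simp)

end Crest.Agent.Helper60
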